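import Vale.Agent.P295.Lemmas

namespace Vale.Agent.Results.P295.LowDegreeAndAffine

open Vale.Agent.P295

theorem result (n : ℕ) (f : MvPolynomial (Fin n) ℂ) (hs : IsStableCoordinate f)
    (hf : f.totalDegree ≤ 2 ∨
      ∃ i₀ : Fin n, ∀ d ∈ f.support, ∑ j ∈ Finset.univ.erase i₀, d j ≤ 1) :
    IsCoordinate f := by
  rcases hf with hf | ⟨i₀, hf⟩
  · exact coordinate_of_totalDegree_le_two hs hf
  · exact coordinate_of_affine hs i₀ hf

end Vale.Agent.Results.P295.LowDegreeAndAffine
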